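import Mathlib

/-!
Window lemma (discrete Brascamp-Lieb on a path) for P328

Pure real analysis, no P328 imports. Used in the induction step of the
negative correlation theorem (helper74, report 1244).
-/

namespace Vale.Agent.P328.Window

open Finset

/-- two-term Cauchy-Schwarz -/
theorem cs_two {x y A B A' B' : ℝ} (hA : 0 ≤ A) (hB : 0 ≤ B) (hA' : 0 ≤ A') (hB' : 0 ≤ B')
    (hx : x ^ 2 ≤ A * B) (hy : y ^ 2 ≤ A' * B') : (x + y) ^ 2 ≤ (A + A') * (B + B') := by
  have h1 : (x * y) ^ 2 ≤ ((A * B' + A' * B) / 2) ^ 2 := by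
    have h0 : (x * y) ^ 2 ≤ (A * B) * (A' * B') := by
      rw [mul_pow]; exact mul_le_mul hx hy (sq_nonneg _) (mul_nonneg hA hB)
    nlinarith [sq_nonneg (A * B' - A' * B)]
  have h3 : 0 ≤ (A * B' + A' * B) / 2 := by positivity
  have h2 : x * y ≤ (A * B' + A' * B) / 2 := (abs_le_of_sq_le_sq' h1 h3).2
  nlinarith

/-- indicator of the first vertex -/
noncomputable def kap (i : ℕ) : ℝ := if i = 0 then 1 else 0

theorem kap_zero : kap 0 = 1 := by simp [kap]

theorem kap_succ (i : ℕ) : kap (i + 1) = 0 := by simp [kap]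

theorem kap_nonneg (i : ℕ) : 0 ≤ kap i := by
  unfold kap; split_ifs <;> norm_num

/-- path Cauchy-Schwarz -/
theorem pair_bound (m : ℕ) (w φ ε : ℕ → ℝ)
    (hε : ∀ i, i < m → 0 ≤ ε i)
    (hR : ∀ i, i < m → w (i + 2) / w (i + 1) ≤ w (i + 1) / w i)
    (hstep : ∀ i, i < m → (φ (i + 1) - φ i) ^ 2
      ≤ (w (i + 1) / w i - w (i + 2) / w (i + 1) + kap i) * ε i)
    (i j : ℕ) (hij : i + 1 ≤ j) (hj : j ≤ m) :
    0 ≤ w (i + 1) / w i - w (j + 1) / w j + kap i ∧ 0 ≤ ∑ τ ∈ Ico i j, ε τ ∧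
    (φ j - φ i) ^ 2 ≤ (w (i + 1) / w i - w (j + 1) / w j + kap i) * ∑ τ ∈ Ico i j, ε τ := by
  induction j, hij using Nat.le_induction with
  | base =>
    have h1 := hR i (by omega)
    have h2 := hε i (by omega)
    have h3 := hstep i (by omega)
    have hk := kap_nonneg i
    refine ⟨by linarith, ?_, ?_⟩
    · simpa using h2
    · simpa using h3
  | succ j hij ih =>
    obtain ⟨hA, hB, hx⟩ := ih (by omega)
    have h1 := hR j (by omega)
    have h2 := hε j (by omega)
    have h3 := hstep j (by omega)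
    have hkj : kap j = 0 := by
      obtain ⟨k, rfl⟩ : ∃ k, j = k + 1 := ⟨j - 1, by omega⟩
      exact kap_succ k
    rw [hkj, add_zero] at h3
    have hsum : ∑ τ ∈ Ico i (j + 1), ε τ = ∑ τ ∈ Ico i j, ε τ + ε j :=
      Finset.sum_Ico_succ_top (by omega) _
    have hA' : 0 ≤ w (j + 1) / w j - w (j + 1 + 1) / w (j + 1) := by linarith
    have key := cs_two hA hB hA' h2 hx h3
    refine ⟨by linarith, by rw [hsum]; linarith, ?_⟩
    rw [hsum]
    have e1 : φ (j + 1) - φ i = (φ j - φ i) + (φ (j + 1) - φ j) := by ring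
    have e2 : w (i + 1) / w i - w (j + 1 + 1) / w (j + 1) + kap i
        = (w (i + 1) / w i - w (j + 1) / w j + kap i)
          + (w (j + 1) / w j - w (j + 1 + 1) / w (j + 1)) := by ring
    rw [e1, e2]
    exact key

/-- Abel summation -/
theorem abel (u ε : ℕ → ℝ) (n : ℕ) :
    ∑ i ∈ range n, u i * ∑ τ ∈ Ico i n, ε τ
      = ∑ τ ∈ range n, (∑ i ∈ range (τ + 1), u i) * ε τ := by
  induction n with
  | zero => simp
  | succ n ih =>
    have h1 : ∑ i ∈ range (n + 1), u i * ∑ τ ∈ Ico i (n + 1), ε τ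
        = ∑ i ∈ range (n + 1), (u i * ∑ τ ∈ Ico i n, ε τ + u i * ε n) := by
      apply Finset.sum_congr rfl
      intro i hi
      have hi' : i ≤ n := by
        have := Finset.mem_range.mp hi
        omega
      rw [Finset.sum_Ico_succ_top hi', mul_add]
    rw [h1, Finset.sum_add_distrib, ← Finset.sum_mul]
    rw [Finset.sum_range_succ (fun i => u i * ∑ τ ∈ Ico i n, ε τ) n]
    rw [Finset.sum_range_succ (fun τ => (∑ i ∈ range (τ + 1), u i) * ε τ) n]
    rw [ih]
    simp

/-- sum of the shifted weights -/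
theorem what_sum (w : ℕ → ℝ) (n : ℕ) :
    ∑ i ∈ range (n + 1), (w (i + 1) + kap i * w i) = ∑ i ∈ range (n + 1), w i + w (n + 1) := by
  induction n with
  | zero =>
    simp [kap_zero]
    ring
  | succ n ih =>
    rw [Finset.sum_range_succ, ih, kap_succ, Finset.sum_range_succ (fun i => w i) (n + 1)]
    ring

/-- Core window inequality. -/
theorem window_core (m : ℕ) (w φ ε : ℕ → ℝ)
    (hw : ∀ i, i ≤ m → 0 < w i) (hw1 : 0 ≤ w (m + 1))
    (hε : ∀ i, i < m → 0 ≤ ε i)
    (hR : ∀ i, i < m → w (i + 2) / w (i + 1) ≤ w (i + 1) / w i)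
    (hstep : ∀ i, i < m → (φ (i + 1) - φ i) ^ 2
      ≤ (w (i + 1) / w i - w (i + 2) / w (i + 1) + kap i) * ε i) :
    (∑ i ∈ range (m + 1), w i) * (∑ i ∈ range (m + 1), w i * φ i ^ 2)
        - (∑ i ∈ range (m + 1), w i * φ i) ^ 2
      ≤ (∑ i ∈ range (m + 1), w i) * (∑ τ ∈ range m, w (τ + 1) * ε τ)
        - w (m + 1) * ∑ τ ∈ range m, (∑ i ∈ range (τ + 1), w i) * ε τ := by
  induction m with
  | zero =>
    simp
    apply le_of_eq
    ring
  | succ m ih =>
    have ih' := ih (fun i hi => hw i (by omega)) (le_of_lt (hw (m + 1) le_rfl))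
      (fun i hi => hε i (by omega)) (fun i hi => hR i (by omega))
      (fun i hi => hstep i (by omega))
    have hwm : 0 < w (m + 1) := hw (m + 1) le_rfl
    -- termwise bound
    have hU : ∑ i ∈ range (m + 1), w i * (φ (m + 1) - φ i) ^ 2
        ≤ ∑ i ∈ range (m + 1), w i * ((w (i + 1) / w i - w (m + 1 + 1) / w (m + 1) + kap i)
            * ∑ τ ∈ Ico i (m + 1), ε τ) := by
      apply Finset.sum_le_sum
      intro i hi
      have hi' : i < m + 1 := Finset.mem_range.mp hi
      have := (pair_bound (m + 1) w φ ε hε hR hstep i (m + 1) (by omega) le_rfl).2.2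
      exact mul_le_mul_of_nonneg_left this (le_of_lt (hw i (by omega)))
    -- the bound in closed form
    have hF : ∑ i ∈ range (m + 1), w i * ((w (i + 1) / w i - w (m + 1 + 1) / w (m + 1) + kap i)
            * ∑ τ ∈ Ico i (m + 1), ε τ)
        = (∑ τ ∈ range (m + 1), (∑ i ∈ range (τ + 1), w i) * ε τ
            + ∑ τ ∈ range (m + 1), w (τ + 1) * ε τ)
          - w (m + 1 + 1) / w (m + 1)
            * ∑ τ ∈ range (m + 1), (∑ i ∈ range (τ + 1), w i) * ε τ := by
      have h1 : ∑ i ∈ range (m + 1), w i * ((w (i + 1) / w i - w (m + 1 + 1) / w (m + 1) + kap i)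
            * ∑ τ ∈ Ico i (m + 1), ε τ)
          = ∑ i ∈ range (m + 1), ((w (i + 1) + kap i * w i) * ∑ τ ∈ Ico i (m + 1), ε τ
              - w (m + 1 + 1) / w (m + 1) * (w i * ∑ τ ∈ Ico i (m + 1), ε τ)) := by
        apply Finset.sum_congr rfl
        intro i hi
        have hi' : i < m + 1 := Finset.mem_range.mp hi
        have hwi : w i ≠ 0 := ne_of_gt (hw i (by omega))
        have hwm' : w (m + 1) ≠ 0 := ne_of_gt hwm
        field_simp
        ring
      rw [h1, Finset.sum_sub_distrib, ← Finset.mul_sum, abel, abel]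
      congr 1
      rw [← Finset.sum_add_distrib]
      apply Finset.sum_congr rfl
      intro τ _
      rw [what_sum]
      ring
    -- expand the sums
    have hUe : ∑ i ∈ range (m + 1), w i * (φ (m + 1) - φ i) ^ 2
        = (∑ i ∈ range (m + 1), w i * φ i ^ 2)
          - 2 * φ (m + 1) * (∑ i ∈ range (m + 1), w i * φ i)
          + φ (m + 1) ^ 2 * ∑ i ∈ range (m + 1), w i := by
      rw [Finset.mul_sum, Finset.mul_sum, ← Finset.sum_sub_distrib, ← Finset.sum_add_distrib]
      apply Finset.sum_congr rfl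
      intro i _
      ring
    rw [Finset.sum_range_succ (fun i => w i) (m + 1),
      Finset.sum_range_succ (fun i => w i * φ i ^ 2) (m + 1),
      Finset.sum_range_succ (fun i => w i * φ i) (m + 1),
      Finset.sum_range_succ (fun τ => w (τ + 1) * ε τ) m,
      Finset.sum_range_succ (fun τ => (∑ i ∈ range (τ + 1), w i) * ε τ) m]
    rw [Finset.sum_range_succ (fun τ => (∑ i ∈ range (τ + 1), w i) * ε τ) m,
      Finset.sum_range_succ (fun τ => w (τ + 1) * ε τ) m] at hF
    rw [hUe, hF] at hU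
    have hU' := mul_le_mul_of_nonneg_left hU (le_of_lt hwm)
    have hcancel : w (m + 1) * (w (m + 1 + 1) / w (m + 1)) = w (m + 1 + 1) := by
      field_simp
    generalize (∑ i ∈ range (m + 1), w i) = W at *
    generalize (∑ i ∈ range (m + 1), w i * φ i ^ 2) = A at *
    generalize (∑ i ∈ range (m + 1), w i * φ i) = M at *
    generalize (∑ τ ∈ range m, w (τ + 1) * ε τ) = S at *
    generalize (∑ τ ∈ range m, (∑ i ∈ range (τ + 1), w i) * ε τ) = T at *
    generalize hq : w (m + 1 + 1) / w (m + 1) = q at *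
    have hq' : w (m + 1) * q * (T + W * ε m) = w (m + 1 + 1) * (T + W * ε m) := by
      rw [hcancel]
    nlinarith [hU', ih', hq']

/-- Window lemma, phi/e form: first vertex shifted by sigma. -/
theorem window_phi (m : ℕ) (w φ0 e : ℕ → ℝ) (σ : ℝ)
    (hw : ∀ i, i ≤ m → 0 < w i) (hw1 : 0 ≤ w (m + 1))
    (he : ∀ i, i < m → 0 ≤ e i)
    (hR : ∀ i, i < m → w (i + 2) / w (i + 1) ≤ w (i + 1) / w i)
    (hstep : ∀ i, i < m → (φ0 (i + 1) - φ0 i) ^ 2
      ≤ (w (i + 1) / w i - w (i + 2) / w (i + 1)) * e i) :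
    (∑ i ∈ range (m + 1), w i)
          * (∑ i ∈ range (m + 1), w i * (φ0 i + if i = 0 then σ else 0) ^ 2)
        - (∑ i ∈ range (m + 1), w i * (φ0 i + if i = 0 then σ else 0)) ^ 2
      ≤ (∑ i ∈ range (m + 1), w i) * (∑ τ ∈ range m, w (τ + 1) * e τ + σ ^ 2 * w 1) := by
  have hε : ∀ i, i < m → 0 ≤ (fun i => e i + if i = 0 then σ ^ 2 else 0) i := by
    intro i hi
    have := he i hi
    show 0 ≤ e i + if i = 0 then σ ^ 2 else 0
    split_ifs
    · positivity
    · linarith
  have hst : ∀ i, i < m →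
      ((fun i => φ0 i + if i = 0 then σ else 0) (i + 1)
        - (fun i => φ0 i + if i = 0 then σ else 0) i) ^ 2
      ≤ (w (i + 1) / w i - w (i + 2) / w (i + 1) + kap i)
        * (fun i => e i + if i = 0 then σ ^ 2 else 0) i := by
    intro i hi
    have h1 := hR i hi
    have h2 := he i hi
    have h3 := hstep i hi
    rcases Nat.eq_zero_or_pos i with h0 | h0
    · subst h0
      simp only [kap_zero, if_true]
      have key := cs_two (x := φ0 (0 + 1) - φ0 0) (y := -σ)
        (A := w (0 + 1) / w 0 - w (0 + 2) / w (0 + 1)) (B := e 0) (A' := 1) (B' := σ ^ 2)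
        (by linarith) h2 zero_le_one (sq_nonneg _) h3 (by simp)
      have e1 : φ0 (0 + 1) + (if 0 + 1 = 0 then σ else 0) - (φ0 0 + σ)
          = (φ0 (0 + 1) - φ0 0) + -σ := by simp; ring
      rw [e1]
      exact key
    · have hk : kap i = 0 := by
        obtain ⟨k, rfl⟩ : ∃ k, i = k + 1 := ⟨i - 1, by omega⟩
        exact kap_succ k
      have hi0 : i ≠ 0 := by omega
      simp only [hk, add_zero, hi0, if_false, Nat.succ_ne_zero]
      exact h3
  have core := window_core m w (fun i => φ0 i + if i = 0 then σ else 0)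
    (fun i => e i + if i = 0 then σ ^ 2 else 0) hw hw1 hε hR hst
  have hWpos : 0 ≤ ∑ i ∈ range (m + 1), w i :=
    Finset.sum_nonneg (fun i hi => le_of_lt (hw i (by
      have := Finset.mem_range.mp hi
      omega)))
  have hT : 0 ≤ ∑ τ ∈ range m, (∑ i ∈ range (τ + 1), w i)
      * (fun i => e i + if i = 0 then σ ^ 2 else 0) τ := by
    apply Finset.sum_nonneg
    intro τ hτ
    have hτ' : τ < m := Finset.mem_range.mp hτ
    apply mul_nonneg
    · exact Finset.sum_nonneg (fun i hi => le_of_lt (hw i (by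
        have := Finset.mem_range.mp hi
        omega)))
    · exact hε τ hτ'
  have hw1' : 0 ≤ w 1 := by
    rcases Nat.eq_zero_or_pos m with h0 | h0
    · subst h0; simpa using hw1
    · exact le_of_lt (hw 1 (by omega))
  have hS : ∑ τ ∈ range m, w (τ + 1) * (fun i => e i + if i = 0 then σ ^ 2 else 0) τ
      ≤ ∑ τ ∈ range m, w (τ + 1) * e τ + σ ^ 2 * w 1 := by
    have h1 : ∑ τ ∈ range m, w (τ + 1) * (fun i => e i + if i = 0 then σ ^ 2 else 0) τ
        = ∑ τ ∈ range m, w (τ + 1) * e τ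
          + ∑ τ ∈ range m, (if τ = 0 then w 1 * σ ^ 2 else 0) := by
      rw [← Finset.sum_add_distrib]
      apply Finset.sum_congr rfl
      intro τ _
      show w (τ + 1) * (e τ + if τ = 0 then σ ^ 2 else 0) = _
      split_ifs with h
      · subst h; ring
      · ring
    rw [h1, Finset.sum_ite_eq' (range m) 0 (fun _ => w 1 * σ ^ 2)]
    split_ifs
    · linarith
    · have : 0 ≤ σ ^ 2 * w 1 := mul_nonneg (sq_nonneg _) hw1'
      linarith
  have h4 := mul_le_mul_of_nonneg_left hS hWpos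
  have h5 := mul_nonneg hw1 hT
  linarith

/-- Window lemma, division-cleared form (`xi i = w i * phi0 i`, `P i = w (i+1) * e i`). -/
theorem window (m : ℕ) (w ξ P : ℕ → ℝ) (σ : ℝ)
    (hw : ∀ i, i ≤ m → 0 < w i) (hw1 : 0 ≤ w (m + 1))
    (hP : ∀ i, i < m → 0 ≤ P i)
    (hlc : ∀ i, i < m → w i * w (i + 2) ≤ w (i + 1) ^ 2)
    (hinc : ∀ i, i < m → (ξ (i + 1) * w i - ξ i * w (i + 1)) ^ 2
      ≤ (w (i + 1) ^ 2 - w i * w (i + 2)) * (w i * P i)) :
    (∑ i ∈ range (m + 1), w i)
          * (∑ i ∈ range (m + 1), ξ i ^ 2 / w i + 2 * σ * ξ 0 + σ ^ 2 * w 0)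
        - (∑ i ∈ range (m + 1), ξ i + σ * w 0) ^ 2
      ≤ (∑ i ∈ range (m + 1), w i) * (∑ i ∈ range m, P i + σ ^ 2 * w 1) := by
  have hpos : ∀ i, i < m → 0 < w i ∧ 0 < w (i + 1) := fun i hi =>
    ⟨hw i (by omega), hw (i + 1) (by omega)⟩
  have he : ∀ i, i < m → 0 ≤ (fun i => P i / w (i + 1)) i := fun i hi =>
    div_nonneg (hP i hi) (le_of_lt (hpos i hi).2)
  have hR : ∀ i, i < m → w (i + 2) / w (i + 1) ≤ w (i + 1) / w i := by
    intro i hi
    obtain ⟨h0, h1⟩ := hpos i hi
    rw [div_le_div_iff₀ h1 h0]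
    have := hlc i hi
    nlinarith
  have hstep : ∀ i, i < m → ((fun i => ξ i / w i) (i + 1) - (fun i => ξ i / w i) i) ^ 2
      ≤ (w (i + 1) / w i - w (i + 2) / w (i + 1)) * (fun i => P i / w (i + 1)) i := by
    intro i hi
    obtain ⟨h0, h1⟩ := hpos i hi
    have h := hinc i hi
    have e1 : (ξ (i + 1) / w (i + 1) - ξ i / w i) ^ 2
        = (ξ (i + 1) * w i - ξ i * w (i + 1)) ^ 2 / (w i * w (i + 1)) ^ 2 := by
      field_simp
    have e2 : (w (i + 1) / w i - w (i + 2) / w (i + 1)) * (P i / w (i + 1))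
        = (w (i + 1) ^ 2 - w i * w (i + 2)) * (w i * P i) / (w i * w (i + 1)) ^ 2 := by
      field_simp
    show (ξ (i + 1) / w (i + 1) - ξ i / w i) ^ 2
      ≤ (w (i + 1) / w i - w (i + 2) / w (i + 1)) * (P i / w (i + 1))
    rw [e1, e2]
    exact div_le_div_of_nonneg_right h (by positivity)
  have main := window_phi m w (fun i => ξ i / w i) (fun i => P i / w (i + 1)) σ hw hw1 he hR hstep
  have hw0 : w 0 ≠ 0 := ne_of_gt (hw 0 (Nat.zero_le m))
  have s1 : ∑ i ∈ range (m + 1), w i * ((fun i => ξ i / w i) i + if i = 0 then σ else 0) ^ 2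
      = ∑ i ∈ range (m + 1), ξ i ^ 2 / w i + 2 * σ * ξ 0 + σ ^ 2 * w 0 := by
    have h1 : ∑ i ∈ range (m + 1), w i * ((fun i => ξ i / w i) i + if i = 0 then σ else 0) ^ 2
        = ∑ i ∈ range (m + 1), (ξ i ^ 2 / w i
            + if i = 0 then 2 * σ * ξ 0 + σ ^ 2 * w 0 else 0) := by
      apply Finset.sum_congr rfl
      intro i hi
      have hi' : i < m + 1 := Finset.mem_range.mp hi
      have hwi : w i ≠ 0 := ne_of_gt (hw i (by omega))
      show w i * (ξ i / w i + if i = 0 then σ else 0) ^ 2 = _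
      split_ifs with h
      · subst h; field_simp; ring
      · field_simp; ring
    rw [h1, Finset.sum_add_distrib, Finset.sum_ite_eq' (range (m + 1)) 0
      (fun _ => 2 * σ * ξ 0 + σ ^ 2 * w 0)]
    simp
    ring
  have s2 : ∑ i ∈ range (m + 1), w i * ((fun i => ξ i / w i) i + if i = 0 then σ else 0)
      = ∑ i ∈ range (m + 1), ξ i + σ * w 0 := by
    have h1 : ∑ i ∈ range (m + 1), w i * ((fun i => ξ i / w i) i + if i = 0 then σ else 0)
        = ∑ i ∈ range (m + 1), (ξ i + if i = 0 then σ * w 0 else 0) := by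
      apply Finset.sum_congr rfl
      intro i hi
      have hi' : i < m + 1 := Finset.mem_range.mp hi
      have hwi : w i ≠ 0 := ne_of_gt (hw i (by omega))
      show w i * (ξ i / w i + if i = 0 then σ else 0) = _
      split_ifs with h
      · subst h; field_simp
      · field_simp; ring
    rw [h1, Finset.sum_add_distrib, Finset.sum_ite_eq' (range (m + 1)) 0 (fun _ => σ * w 0)]
    simp
  have s3 : ∑ τ ∈ range m, w (τ + 1) * (fun i => P i / w (i + 1)) τ = ∑ i ∈ range m, P i := by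
    apply Finset.sum_congr rfl
    intro i hi
    have hi' : i < m := Finset.mem_range.mp hi
    have hwi : w (i + 1) ≠ 0 := ne_of_gt (hpos i hi').2
    show w (i + 1) * (P i / w (i + 1)) = P i
    field_simp
  rw [s1, s2, s3] at main
  exact main

end Vale.Agent.P328.Window
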