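import Mathlib
import Vale.Agent.Lib.P328.helper74.ChainDefs
import Vale.Agent.Lib.P328.helper4.Window

/-!
P328: the column step for the property `Lor` (independent proof).
-/

namespace Vale.Agent.Lib.P328.helper4

open Finset
open Vale.Agent.Lib.P328.helper74

/-- nonnegativity of the counts -/
theorem Lor_nonneg {m : ℕ} {w l q : ℤ → ℝ} (h : Lor m w l q) (ρ : ℤ) : 0 ≤ w ρ := by
  obtain ⟨hpos, hw0, _, _, _⟩ := h
  by_cases hρ : 0 ≤ ρ ∧ ρ ≤ (m : ℤ)
  · exact le_of_lt (hpos ρ hρ.1 hρ.2)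
  · have : ρ < 0 ∨ (m : ℤ) < ρ := by omega
    rw [hw0 ρ this]

/-- the discriminant inequality at a level of the support -/
theorem Lor_disc {m : ℕ} {w l q : ℤ → ℝ} (h : Lor m w l q) (ρ : ℤ) (h0 : 0 ≤ ρ)
    (hm : ρ ≤ (m : ℤ)) :
    (w ρ * l (ρ + 1) - w (ρ + 1) * l ρ) ^ 2
      ≤ (w (ρ + 1) ^ 2 - w ρ * w (ρ + 2)) * (l ρ ^ 2 - w ρ * q ρ) := by
  obtain ⟨_, _, _, _, hmain⟩ := h
  have hd := discrim_le_zero (a := w (ρ + 1) ^ 2 - w ρ * w (ρ + 2))
    (b := -2 * (w ρ * l (ρ + 1) - w (ρ + 1) * l ρ)) (c := l ρ ^ 2 - w ρ * q ρ)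
    (fun x => by
      have := hmain ρ h0 hm x 1
      nlinarith [this])
  unfold discrim at hd
  nlinarith [hd]

/-- The window lemma applied inside the support. -/
theorem keyK {m : ℕ} {w l q : ℤ → ℝ} (h : Lor m w l q) (a : ℤ) (N : ℕ) (ha : 0 ≤ a)
    (haN : a + (N : ℤ) ≤ (m : ℤ)) (y z σ : ℝ) :
    (∑ i ∈ range (N + 1), w (a + (i : ℤ))) *
        ((∑ i ∈ range (N + 1), w (a + 1 + 1 + (i : ℤ))) * y ^ 2
          + 2 * (∑ i ∈ range (N + 1), l (a + 1 + (i : ℤ))) * y * z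
          + (∑ i ∈ range (N + 1), q (a + (i : ℤ))) * z ^ 2
          + 2 * σ * (w (a + 1) * y + l a * z) + σ ^ 2 * (w a - w (a + 1)))
      ≤ ((∑ i ∈ range (N + 1), w (a + 1 + (i : ℤ))) * y
          + (∑ i ∈ range (N + 1), l (a + (i : ℤ))) * z + σ * w a) ^ 2 := by
  have hnn := Lor_nonneg h
  have hdisc := Lor_disc h
  obtain ⟨hpos, hw0, hl0, hq0, hmain⟩ := h
  have hin : ∀ i : ℕ, i ≤ N → 0 ≤ a + (i : ℤ) ∧ a + (i : ℤ) ≤ (m : ℤ) := fun i hi => by
    constructor <;> omega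
  have hwpos : ∀ i : ℕ, i ≤ N → 0 < w (a + (i : ℤ)) := fun i hi =>
    hpos _ (hin i hi).1 (hin i hi).2
  -- the binary form
  let p : ℤ → ℝ := fun ρ => (w (ρ + 1) ^ 2 - w ρ * w (ρ + 2)) * y ^ 2
      - 2 * (w ρ * l (ρ + 1) - w (ρ + 1) * l ρ) * y * z + (l ρ ^ 2 - w ρ * q ρ) * z ^ 2
  have hp : ∀ i : ℕ, i ≤ N → 0 ≤ p (a + (i : ℤ)) := fun i hi =>
    hmain _ (hin i hi).1 (hin i hi).2 y z
  have c1 : ∀ i : ℕ, a + ((i + 1 : ℕ) : ℤ) = a + (i : ℤ) + 1 := fun i => by push_cast; ring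
  have c2 : ∀ i : ℕ, a + ((i + 2 : ℕ) : ℤ) = a + (i : ℤ) + 2 := fun i => by push_cast; ring
  have c3 : ∀ i : ℕ, a + ((i + 1 : ℕ) : ℤ) + 1 = a + (i : ℤ) + 2 := fun i => by push_cast; ring
  have key := Vale.Agent.P328.Window.window N (fun i => w (a + (i : ℤ)))
      (fun i => w (a + (i : ℤ) + 1) * y + l (a + (i : ℤ)) * z)
      (fun i => p (a + (i : ℤ)) / w (a + (i : ℤ))) σ
      (fun i hi => hwpos i hi) (hnn _)
      (fun i hi => div_nonneg (hp i (by omega)) (le_of_lt (hwpos i (by omega))))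
      (fun i hi => by
        show w (a + (i : ℤ)) * w (a + ((i + 2 : ℕ) : ℤ)) ≤ w (a + ((i + 1 : ℕ) : ℤ)) ^ 2
        rw [c2, c1]
        have := hmain _ (hin i (by omega)).1 (hin i (by omega)).2 1 0
        nlinarith [this])
      (fun i hi => by
        show ((w (a + ((i + 1 : ℕ) : ℤ) + 1) * y + l (a + ((i + 1 : ℕ) : ℤ)) * z) * w (a + (i : ℤ))
            - (w (a + (i : ℤ) + 1) * y + l (a + (i : ℤ)) * z) * w (a + ((i + 1 : ℕ) : ℤ))) ^ 2
          ≤ (w (a + ((i + 1 : ℕ) : ℤ)) ^ 2 - w (a + (i : ℤ)) * w (a + ((i + 2 : ℕ) : ℤ)))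
            * (w (a + (i : ℤ)) * (p (a + (i : ℤ)) / w (a + (i : ℤ))))
        rw [c3, c2, c1]
        have hwi : w (a + (i : ℤ)) ≠ 0 := ne_of_gt (hwpos i (by omega))
        have e1 : w (a + (i : ℤ)) * (p (a + (i : ℤ)) / w (a + (i : ℤ))) = p (a + (i : ℤ)) := by
          field_simp
        rw [e1]
        have hd := hdisc _ (hin i (by omega)).1 (hin i (by omega)).2
        have hz := mul_nonneg (sub_nonneg.mpr hd) (sq_nonneg z)
        show _ ≤ _ * ((w (a + (i : ℤ) + 1) ^ 2 - w (a + (i : ℤ)) * w (a + (i : ℤ) + 2)) * y ^ 2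
          - 2 * (w (a + (i : ℤ)) * l (a + (i : ℤ) + 1) - w (a + (i : ℤ) + 1) * l (a + (i : ℤ))) * y * z
          + (l (a + (i : ℤ)) ^ 2 - w (a + (i : ℤ)) * q (a + (i : ℤ))) * z ^ 2)
        nlinarith [hz])
  beta_reduce at key
  simp only [Nat.cast_zero, add_zero, Nat.cast_one] at key
  have hT : ∀ i ∈ range (N + 1),
      (w (a + (i : ℤ) + 1) * y + l (a + (i : ℤ)) * z) ^ 2 / w (a + (i : ℤ))
        = (w (a + 1 + 1 + (i : ℤ)) * y ^ 2 + 2 * l (a + 1 + (i : ℤ)) * y * z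
            + q (a + (i : ℤ)) * z ^ 2) + p (a + (i : ℤ)) / w (a + (i : ℤ)) := by
    intro i hi
    have hi' : i < N + 1 := Finset.mem_range.mp hi
    have hwi : w (a + (i : ℤ)) ≠ 0 := ne_of_gt (hwpos i (by omega))
    have e1 : a + 1 + 1 + (i : ℤ) = a + (i : ℤ) + 2 := by ring
    have e2 : a + 1 + (i : ℤ) = a + (i : ℤ) + 1 := by ring
    rw [e1, e2]
    simp only [p]
    field_simp
    ring
  have S1 : ∑ i ∈ range (N + 1),
      (w (a + (i : ℤ) + 1) * y + l (a + (i : ℤ)) * z) ^ 2 / w (a + (i : ℤ))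
        = ((∑ i ∈ range (N + 1), w (a + 1 + 1 + (i : ℤ))) * y ^ 2
          + 2 * (∑ i ∈ range (N + 1), l (a + 1 + (i : ℤ))) * y * z
          + (∑ i ∈ range (N + 1), q (a + (i : ℤ))) * z ^ 2)
          + ∑ i ∈ range (N + 1), p (a + (i : ℤ)) / w (a + (i : ℤ)) := by
    rw [Finset.sum_congr rfl hT]
    simp only [Finset.sum_add_distrib, Finset.sum_mul, Finset.mul_sum]
  have S2 : ∑ i ∈ range (N + 1), (w (a + (i : ℤ) + 1) * y + l (a + (i : ℤ)) * z)
      = (∑ i ∈ range (N + 1), w (a + 1 + (i : ℤ))) * y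
        + (∑ i ∈ range (N + 1), l (a + (i : ℤ))) * z := by
    rw [Finset.sum_add_distrib, ← Finset.sum_mul, ← Finset.sum_mul]
    congr 2
    apply Finset.sum_congr rfl
    intro i _
    congr 1
    ring
  have S3 : ∑ i ∈ range (N + 1), p (a + (i : ℤ)) / w (a + (i : ℤ))
      = ∑ i ∈ range N, p (a + (i : ℤ)) / w (a + (i : ℤ)) + p (a + (N : ℤ)) / w (a + (N : ℤ)) :=
    Finset.sum_range_succ _ _
  rw [S1, S2, S3] at key
  have hPN : 0 ≤ p (a + (N : ℤ)) / w (a + (N : ℤ)) :=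
    div_nonneg (hp N le_rfl) (le_of_lt (hwpos N le_rfl))
  have hA0 : 0 ≤ ∑ i ∈ range (N + 1), w (a + (i : ℤ)) := Finset.sum_nonneg (fun i _ => hnn _)
  have hprod := mul_nonneg hA0 hPN
  generalize (∑ i ∈ range (N + 1), w (a + (i : ℤ))) = A0 at *
  generalize (∑ i ∈ range (N + 1), w (a + 1 + (i : ℤ))) = A1 at *
  generalize (∑ i ∈ range (N + 1), w (a + 1 + 1 + (i : ℤ))) = A2 at *
  generalize (∑ i ∈ range (N + 1), l (a + (i : ℤ))) = B0 at *
  generalize (∑ i ∈ range (N + 1), l (a + 1 + (i : ℤ))) = B1 at *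
  generalize (∑ i ∈ range (N + 1), q (a + (i : ℤ))) = Q0 at *
  generalize (∑ i ∈ range N, p (a + (i : ℤ)) / w (a + (i : ℤ))) = SP at *
  generalize p (a + (N : ℤ)) / w (a + (N : ℤ)) = PN at *
  nlinarith [key, hprod]

/-- Re-indexing of a reversed window sum onto a sub-window outside of which `f` vanishes. -/
theorem sum_shift0 (f : ℤ → ℝ) (s : ℤ) (C : ℕ) (A : ℤ) (n : ℕ)
    (h1 : s - (C : ℤ) ≤ A) (h2 : A + (n : ℤ) ≤ s + 1)
    (hlo : ∀ ρ, s - (C : ℤ) ≤ ρ → ρ < A → f ρ = 0)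
    (hhi : ∀ ρ, A + (n : ℤ) ≤ ρ → ρ ≤ s → f ρ = 0) :
    ∑ k ∈ range (C + 1), f (s - (k : ℤ)) = ∑ i ∈ range n, f (A + (i : ℤ)) := by
  have hrefl : ∑ k ∈ range (C + 1), f (s - (k : ℤ))
      = ∑ j ∈ range (C + 1), f (s - (C : ℤ) + (j : ℤ)) := by
    rw [← Finset.sum_range_reflect (fun j => f (s - (C : ℤ) + (j : ℤ))) (C + 1)]
    apply Finset.sum_congr rfl
    intro k hk
    have hk' : k < C + 1 := Finset.mem_range.mp hk
    congr 1
    omega
  rw [hrefl]
  obtain ⟨d, hd⟩ : ∃ d : ℕ, (d : ℤ) = A - (s - (C : ℤ)) :=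
    ⟨(A - (s - (C : ℤ))).toNat, by omega⟩
  obtain ⟨e, he⟩ : ∃ e : ℕ, C + 1 = d + n + e := ⟨C + 1 - d - n, by omega⟩
  rw [he, Finset.sum_range_add, Finset.sum_range_add]
  have z1 : ∑ x ∈ range d, f (s - (C : ℤ) + (x : ℤ)) = 0 := by
    apply Finset.sum_eq_zero
    intro x hx
    have := Finset.mem_range.mp hx
    apply hlo <;> omega
  have z3 : ∑ x ∈ range e, f (s - (C : ℤ) + ((d + n + x : ℕ) : ℤ)) = 0 := by
    apply Finset.sum_eq_zero
    intro x hx
    have := Finset.mem_range.mp hx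
    apply hhi <;> push_cast <;> omega
  rw [z1, z3, zero_add, add_zero]
  apply Finset.sum_congr rfl
  intro i _
  congr 1
  push_cast
  omega

/-- peeling the first term of a window sum -/
theorem peel1 (f : ℤ → ℝ) (A : ℤ) (n : ℕ) :
    ∑ i ∈ range (n + 1), f (A + (i : ℤ)) = f A + ∑ i ∈ range n, f (A + 1 + (i : ℤ)) := by
  rw [Finset.sum_range_succ']
  simp only [Nat.cast_zero, add_zero]
  rw [add_comm]
  congr 1
  apply Finset.sum_congr rfl
  intro i _
  congr 1
  push_cast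
  ring

/-- The column step: `Lor` is preserved when a column is added. -/
theorem Lor_step {m C : ℕ} {t : ℝ} {w l q : ℤ → ℝ} (h : Lor m w l q) :
    Lor (m + C) (addW C w) (addL C t w l) (addQ C t w l q) := by
  have hnn := Lor_nonneg h
  have hK := keyK h
  obtain ⟨hpos, hw0, hl0, hq0, hmain⟩ := h
  refine ⟨?_, ?_, ?_, ?_, ?_⟩
  · intro ρ h0 hm
    push_cast at hm
    show 0 < ∑ k ∈ range (C + 1), w (ρ - (k : ℤ))
    apply Finset.sum_pos' (fun k _ => hnn _)
    refine ⟨(ρ - (m : ℤ)).toNat, ?_, ?_⟩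
    · rw [Finset.mem_range]; omega
    · apply hpos <;> omega
  · intro ρ hout
    push_cast at hout
    show ∑ k ∈ range (C + 1), w (ρ - (k : ℤ)) = 0
    apply Finset.sum_eq_zero
    intro k hk
    have := Finset.mem_range.mp hk
    apply hw0
    omega
  · intro ρ hout
    push_cast at hout
    show ∑ k ∈ range (C + 1), l (ρ - (k : ℤ)) + t * w (ρ - (C : ℤ)) = 0
    rw [Finset.sum_eq_zero (fun k hk => hl0 _ (by have := Finset.mem_range.mp hk; omega)),
      hw0 _ (by omega)]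
    simp
  · intro ρ hout
    push_cast at hout
    show ∑ k ∈ range (C + 1), q (ρ - (k : ℤ)) + 2 * t * l (ρ - (C : ℤ))
      + t ^ 2 * (w (ρ - (C : ℤ)) - if 1 ≤ C then w (ρ - (C : ℤ) + 1) else 0) = 0
    rw [Finset.sum_eq_zero (fun k hk => hq0 _ (by have := Finset.mem_range.mp hk; omega)),
      hl0 _ (by omega), hw0 (ρ - (C : ℤ)) (by omega)]
    split_ifs with hC
    · rw [hw0 _ (by omega)]; simp
    · simp
  · intro r h0 hm y z
    push_cast at hm
    rcases Nat.eq_zero_or_pos C with hC | hC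
    · subst hC
      have hmr : r ≤ (m : ℤ) := by simpa using hm
      have := hmain r h0 hmr y z
      simp only [addW, addL, addQ, zero_add, Finset.sum_range_one, Nat.cast_zero, sub_zero]
      simp only [show ¬ (1 ≤ 0) from by norm_num, if_false]
      nlinarith [this]
    · simp only [addW, addL, addQ]
      have hC1 : 1 ≤ C := hC
      rw [if_pos hC1]
      have e1 : r + 1 - (C : ℤ) = r - (C : ℤ) + 1 := by ring
      rw [e1]
      obtain ⟨N, hN⟩ : ∃ N : ℕ, max (r - (C : ℤ)) 0 + (N : ℤ) = min r (m : ℤ) :=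
        ⟨(min r (m : ℤ) - max (r - (C : ℤ)) 0).toNat, by omega⟩
      rcases le_or_gt 0 (r - (C : ℤ)) with ha | ha
      · -- the window starts inside the support
        have e_w : ∑ k ∈ range (C + 1), w (r - (k : ℤ))
            = ∑ i ∈ range (N + 1), w (r - (C : ℤ) + (i : ℤ)) :=
          sum_shift0 w r C (r - (C : ℤ)) (N + 1) le_rfl (by push_cast; omega)
            (fun ρ h1 h2 => by omega) (fun ρ h1 h2 => hw0 ρ (by push_cast at h1; omega))
        have e_w1 : ∑ k ∈ range (C + 1), w (r + 1 - (k : ℤ))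
            = ∑ i ∈ range (N + 1), w (r - (C : ℤ) + 1 + (i : ℤ)) :=
          sum_shift0 w (r + 1) C (r - (C : ℤ) + 1) (N + 1) (by omega) (by push_cast; omega)
            (fun ρ h1 h2 => by omega) (fun ρ h1 h2 => hw0 ρ (by push_cast at h1; omega))
        have e_w2 : ∑ k ∈ range (C + 1), w (r + 2 - (k : ℤ))
            = ∑ i ∈ range (N + 1), w (r - (C : ℤ) + 1 + 1 + (i : ℤ)) :=
          sum_shift0 w (r + 2) C (r - (C : ℤ) + 1 + 1) (N + 1) (by omega) (by push_cast; omega)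
            (fun ρ h1 h2 => by omega) (fun ρ h1 h2 => hw0 ρ (by push_cast at h1; omega))
        have e_l : ∑ k ∈ range (C + 1), l (r - (k : ℤ))
            = ∑ i ∈ range (N + 1), l (r - (C : ℤ) + (i : ℤ)) :=
          sum_shift0 l r C (r - (C : ℤ)) (N + 1) le_rfl (by push_cast; omega)
            (fun ρ h1 h2 => by omega) (fun ρ h1 h2 => hl0 ρ (by push_cast at h1; omega))
        have e_l1 : ∑ k ∈ range (C + 1), l (r + 1 - (k : ℤ))
            = ∑ i ∈ range (N + 1), l (r - (C : ℤ) + 1 + (i : ℤ)) :=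
          sum_shift0 l (r + 1) C (r - (C : ℤ) + 1) (N + 1) (by omega) (by push_cast; omega)
            (fun ρ h1 h2 => by omega) (fun ρ h1 h2 => hl0 ρ (by push_cast at h1; omega))
        have e_q : ∑ k ∈ range (C + 1), q (r - (k : ℤ))
            = ∑ i ∈ range (N + 1), q (r - (C : ℤ) + (i : ℤ)) :=
          sum_shift0 q r C (r - (C : ℤ)) (N + 1) le_rfl (by push_cast; omega)
            (fun ρ h1 h2 => by omega) (fun ρ h1 h2 => hq0 ρ (by push_cast at h1; omega))
        rw [e_w, e_w1, e_w2, e_l, e_l1, e_q]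
        have key := hK (r - (C : ℤ)) N ha (by omega) y z (t * z)
        generalize (∑ i ∈ range (N + 1), w (r - (C : ℤ) + (i : ℤ))) = A0 at *
        generalize (∑ i ∈ range (N + 1), w (r - (C : ℤ) + 1 + (i : ℤ))) = A1 at *
        generalize (∑ i ∈ range (N + 1), w (r - (C : ℤ) + 1 + 1 + (i : ℤ))) = A2 at *
        generalize (∑ i ∈ range (N + 1), l (r - (C : ℤ) + (i : ℤ))) = B0 at *
        generalize (∑ i ∈ range (N + 1), l (r - (C : ℤ) + 1 + (i : ℤ))) = B1 at *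
        generalize (∑ i ∈ range (N + 1), q (r - (C : ℤ) + (i : ℤ))) = Q0 at *
        nlinarith [key]
      · -- the window starts below the support
        have hN' : (N : ℤ) = min r (m : ℤ) := by omega
        have e_w : ∑ k ∈ range (C + 1), w (r - (k : ℤ))
            = ∑ i ∈ range (N + 1), w (0 + (i : ℤ)) :=
          sum_shift0 w r C 0 (N + 1) (by omega) (by push_cast; omega)
            (fun ρ h1 h2 => hw0 ρ (Or.inl h2)) (fun ρ h1 h2 => hw0 ρ (by push_cast at h1; omega))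
        have e_l : ∑ k ∈ range (C + 1), l (r - (k : ℤ))
            = ∑ i ∈ range (N + 1), l (0 + (i : ℤ)) :=
          sum_shift0 l r C 0 (N + 1) (by omega) (by push_cast; omega)
            (fun ρ h1 h2 => hl0 ρ (Or.inl h2)) (fun ρ h1 h2 => hl0 ρ (by push_cast at h1; omega))
        have e_q : ∑ k ∈ range (C + 1), q (r - (k : ℤ))
            = ∑ i ∈ range (N + 1), q (0 + (i : ℤ)) :=
          sum_shift0 q r C 0 (N + 1) (by omega) (by push_cast; omega)
            (fun ρ h1 h2 => hq0 ρ (Or.inl h2)) (fun ρ h1 h2 => hq0 ρ (by push_cast at h1; omega))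
        have e_w1 : ∑ k ∈ range (C + 1), w (r + 1 - (k : ℤ))
            = w 0 + ∑ i ∈ range (N + 1), w (0 + 1 + (i : ℤ)) := by
          rw [sum_shift0 w (r + 1) C 0 (N + 1 + 1) (by omega) (by push_cast; omega)
            (fun ρ h1 h2 => hw0 ρ (Or.inl h2))
            (fun ρ h1 h2 => hw0 ρ (by push_cast at h1; omega)), peel1 w 0 (N + 1)]
        have e_l1 : ∑ k ∈ range (C + 1), l (r + 1 - (k : ℤ))
            = l 0 + ∑ i ∈ range (N + 1), l (0 + 1 + (i : ℤ)) := by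
          rw [sum_shift0 l (r + 1) C 0 (N + 1 + 1) (by omega) (by push_cast; omega)
            (fun ρ h1 h2 => hl0 ρ (Or.inl h2))
            (fun ρ h1 h2 => hl0 ρ (by push_cast at h1; omega)), peel1 l 0 (N + 1)]
        have z1 : w (r - (C : ℤ)) = 0 := hw0 _ (Or.inl ha)
        have z2 : l (r - (C : ℤ)) = 0 := hl0 _ (Or.inl ha)
        have key := hK 0 N le_rfl (by omega) y z y
        have hA0 : 0 ≤ ∑ i ∈ range (N + 1), w (0 + (i : ℤ)) :=
          Finset.sum_nonneg (fun i _ => hnn _)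
        rcases eq_or_lt_of_le (show r - (C : ℤ) ≤ -1 by omega) with hb | hb
        · -- the window starts at level -1
          have e_w2 : ∑ k ∈ range (C + 1), w (r + 2 - (k : ℤ))
              = w (0 + 1) + ∑ i ∈ range (N + 1), w (0 + 1 + 1 + (i : ℤ)) := by
            rw [sum_shift0 w (r + 2) C (0 + 1) (N + 1 + 1) (by omega) (by push_cast; omega)
              (fun ρ h1 h2 => by omega)
              (fun ρ h1 h2 => hw0 ρ (by push_cast at h1; omega)), peel1 w (0 + 1) (N + 1)]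
          have z3 : w (r - (C : ℤ) + 1) = w 0 := by rw [hb]; norm_num
          rw [e_w, e_w1, e_w2, e_l, e_l1, e_q, z1, z2, z3]
          have hextra := mul_nonneg (mul_nonneg hA0 (hnn 0)) (sq_nonneg (y - t * z))
          generalize (∑ i ∈ range (N + 1), w (0 + (i : ℤ))) = A0 at *
          generalize (∑ i ∈ range (N + 1), w (0 + 1 + (i : ℤ))) = A1 at *
          generalize (∑ i ∈ range (N + 1), w (0 + 1 + 1 + (i : ℤ))) = A2 at *
          generalize (∑ i ∈ range (N + 1), l (0 + (i : ℤ))) = B0 at *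
          generalize (∑ i ∈ range (N + 1), l (0 + 1 + (i : ℤ))) = B1 at *
          generalize (∑ i ∈ range (N + 1), q (0 + (i : ℤ))) = Q0 at *
          nlinarith [key, hextra]
        · -- the window starts at level -2 or below
          have e_w2 : ∑ k ∈ range (C + 1), w (r + 2 - (k : ℤ))
              = w 0 + (w (0 + 1) + ∑ i ∈ range (N + 1), w (0 + 1 + 1 + (i : ℤ))) := by
            rw [sum_shift0 w (r + 2) C 0 (N + 1 + 1 + 1) (by omega) (by push_cast; omega)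
              (fun ρ h1 h2 => hw0 ρ (Or.inl h2))
              (fun ρ h1 h2 => hw0 ρ (by push_cast at h1; omega)),
              peel1 w 0 (N + 1 + 1), peel1 w (0 + 1) (N + 1)]
          have z3 : w (r - (C : ℤ) + 1) = 0 := hw0 _ (Or.inl (by omega))
          rw [e_w, e_w1, e_w2, e_l, e_l1, e_q, z1, z2, z3]
          generalize (∑ i ∈ range (N + 1), w (0 + (i : ℤ))) = A0 at *
          generalize (∑ i ∈ range (N + 1), w (0 + 1 + (i : ℤ))) = A1 at *
          generalize (∑ i ∈ range (N + 1), w (0 + 1 + 1 + (i : ℤ))) = A2 at *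
          generalize (∑ i ∈ range (N + 1), l (0 + (i : ℤ))) = B0 at *
          generalize (∑ i ∈ range (N + 1), l (0 + 1 + (i : ℤ))) = B1 at *
          generalize (∑ i ∈ range (N + 1), q (0 + (i : ℤ))) = Q0 at *
          nlinarith [key]

end Vale.Agent.Lib.P328.helper4
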